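import Vale.Agent.P014X.An.Sig

/-! # P014Y, block Ks: the theta group in terms of the first coordinate (helper82) -/

set_option autoImplicit false
set_option linter.all false

open Finset
open scoped Classical

noncomputable section

namespace Vale.Agent.P014Y.Ks

open Vale.Agent.P014T.Sg Vale.Agent.P014X.An Vale.Agent.P014X.An.Eis

section alg

variable {G G' L L' : Type} [AddCommGroup G] [AddCommGroup G'] [Field L] [Field L']

/-- partial products of differences of first coordinates -/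
def dm (X : G → L) (x T : G) (m : ℕ) : L := ∏ j ∈ range m, (X T - X (x + (j + 1) • T))

/-- the factor attached to the translation by `T` -/
def Fn (X : G → L) (N : ℕ) (x T : G) : L :=
  if T = 0 then 1 else (dm X x T N ^ 2) ^ (N / 2) / (∏ m ∈ range N, dm X x T m) ^ 2

theorem fn_map {X : G → L} {X' : G' → L'} (φ : G →+ G') (i : Function.Injective φ) (σ : L →+* L')
    (e : ∀ y, X' (φ y) = σ (X y)) (N : ℕ) (x T : G) : Fn X' N (φ x) (φ T) = σ (Fn X N x T) := by
  have k : ∀ m, dm X' (φ x) (φ T) m = σ (dm X x T m) := fun m => by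
    simp only [dm, map_prod, map_sub, ← e, map_add, map_nsmul]
  simp only [Fn, map_eq_zero_iff φ i, apply_ite σ, map_one, map_div₀, map_pow, map_prod, k]

theorem tel (θ : ℕ → L) (nz : ∀ j, θ j ≠ 0) {κ : L} (κ0 : κ ≠ 0) (c : ℕ → L)
    (e : ∀ j, c j = κ * (θ (j + 2) * θ j) / θ (j + 1) ^ 2) (r : ℕ) {p q w : L} (p0 : p ≠ 0)
    (e1 : θ (2 * r + 1) ^ 2 = p * θ 0 ^ 2) (e2 : θ (2 * r + 2) ^ 2 = p * q * θ 1 ^ 2)
    (e3 : q ^ r = p * w) : ((∏ j ∈ range (2 * r + 1), c j) ^ 2) ^ r /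
      (∏ m ∈ range (2 * r + 1), ∏ j ∈ range m, c j) ^ 2 = (θ 1 / θ 0) ^ (2 * (2 * r + 1)) * w := by
  have n0 := nz 0
  have n1 := nz 1
  have d : ∀ m, ∏ j ∈ range m, c j = κ ^ m * (θ (m + 1) / θ m) / (θ 1 / θ 0) := fun m => by
    induction m with
    | zero => simp [n0, n1]
    | succ m ih =>
      have := nz m
      have := nz (m + 1)
      rw [prod_range_succ, ih, e, pow_succ κ]
      field_simp
  have s : ∀ n, ∏ j ∈ range n, θ (j + 1) / θ j = θ n / θ 0 := fun n => by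
    induction n with
    | zero => simp [n0]
    | succ m ih =>
      have := nz m
      rw [prod_range_succ, ih]
      field_simp
  have a : (∏ j ∈ range (2 * r + 1), c j) ^ 2 = κ ^ (2 * (2 * r + 1)) * q := by
    rw [d, div_pow, mul_pow, div_pow, div_pow, e1, e2, ← pow_mul, mul_comm _ 2]
    field_simp
  have b : (∏ m ∈ range (2 * r + 1), ∏ j ∈ range m, c j) ^ 2 =
      κ ^ (2 * (2 * r + 1) * r) * p / (θ 1 / θ 0) ^ (2 * (2 * r + 1)) := by
    simp only [d]
    rw [prod_div_distrib, prod_mul_distrib, s, prod_const, card_range, prod_pow_eq_pow_sum, div_pow,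
      mul_pow, ← pow_mul, ← pow_mul, sum_range_id_mul_two, div_pow (θ _), e1, mul_comm _ 2,
      mul_div_cancel_right₀ _ (pow_ne_zero _ n0)]
    congr 3
    rw [Nat.add_sub_cancel]
    ring
  rw [a, b, mul_pow, e3, ← pow_mul]
  have := div_ne_zero n1 n0
  field_simp

end alg

variable {τ : ℂ} (h : 0 < τ.im)
include h

theorem th_sq (a b : ℤ) (z : ℂ) :
    th τ (z + (b * τ + a)) ^ 2 = ee (-(2 * b * z) - b ^ 2 * τ) * th τ z ^ 2 := by
  have p : Function.Periodic (fun z => th τ z ^ 2) 1 := fun z => by simp only [th_one, neg_sq]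
  have n : ∀ (n : ℕ) z, th τ (z + n * τ) ^ 2 = ee (-(2 * n * z) - n ^ 2 * τ) * th τ z ^ 2 :=
    fun n z => by
      rw [th_ntau h, mul_pow, mul_pow, ← pow_mul, mul_comm n, pow_mul, neg_sq, one_pow, one_pow,
        one_mul, sq (ee _), ← ee_add]
      congr 2
      ring
  have := p.int_mul a (z + b * τ)
  simp only [mul_one] at this
  rw [← add_assoc, this]
  obtain ⟨m, rfl | rfl⟩ := b.eq_nat_or_neg
  · exact n m z
  · have := n m (z + (-m : ℤ) * τ)
    rw [show z + (-m : ℤ) * τ + m * τ = z by push_cast; ring] at this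
    rw [this, ← mul_assoc, ← ee_add, show -(2 * ((-m : ℤ) : ℂ) * z) - ((-m : ℤ) : ℂ) ^ 2 * τ +
      (-(2 * m * (z + (-m : ℤ) * τ)) - m ^ 2 * τ) = 0 by push_cast; ring, ee_zero, one_mul]

variable {G : Type} [AddCommGroup G] {X : G → ℂ} {ex : ℂ →+ G} {c : ℂ} (c0 : c ≠ 0)
  (k : ∀ z, ex z = 0 ↔ z ∈ (pp h).lattice)
  (x : ∀ z ∉ (pp h).lattice, X (ex z) = c * (pp h).weierstrassP z)
include c0 k x

/-- **the analytic form of the factor** -/
theorem fn_an {N : ℕ} (o : Odd N) {u t : ℂ} {a b : ℤ} (hu : N * u ∉ (pp h).lattice)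
    (ht : N * t = b * τ + a) :
    Fn X N (ex u) (ex t) = (th τ (u + t) / th τ u) ^ (2 * N) * ee (2 * b * u + b * t) := by
  have nm : ∀ j : ℕ, u + j * t ∉ (pp h).lattice := fun j m => hu (by
    have := sub_mem (nsmul_mem m N) (nsmul_mem ((mem h _).2 ⟨b, a, rfl⟩) j)
    rwa [← ht, nsmul_eq_mul, nsmul_eq_mul, show N * (u + j * t) - j * (N * t) = N * u by ring] at this)
  have nz : ∀ j : ℕ, th τ (u + j * t) ≠ 0 := fun j => th_nz h (nm j)
  have n0 : th τ u ≠ 0 := by simpa using nz 0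
  have n1 : th τ (u + t) ≠ 0 := by simpa using nz 1
  by_cases m : t ∈ (pp h).lattice
  · rw [Fn, if_pos ((k t).2 m)]
    obtain ⟨p, q, rfl⟩ := (mem h _).1 m
    have e : b = N * p := by
      have := congrArg Complex.im ht
      simp only [Complex.mul_im, Complex.add_im, Complex.natCast_re, Complex.natCast_im,
        Complex.intCast_re, Complex.intCast_im, zero_mul, add_zero] at this
      exact_mod_cast mul_right_cancel₀ h.ne' (this.symm.trans (mul_assoc _ _ _).symm)
    rw [pow_mul, div_pow, th_sq h, mul_div_cancel_right₀ _ (pow_ne_zero _ n0), ← ee_nat, ← ee_add,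
      eq_comm, ee_one]
    exact ⟨b * q, by rw [e]; push_cast; ring⟩
  rw [Fn, if_neg (mt (k t).1 m)]
  obtain ⟨κ, hκ⟩ : ∃ κ, κ = c * t1 τ ^ 2 / th τ t ^ 2 := ⟨_, rfl⟩
  have nt := th_nz h m
  have κ0 : κ ≠ 0 := hκ ▸ div_ne_zero (mul_ne_zero c0 (pow_ne_zero _ (t1_ne h))) (pow_ne_zero _ nt)
  have e : ∀ j : ℕ, X (ex t) - X (ex u + (j + 1) • ex t) = κ * (th τ (u + (j + 2 : ℕ) * t) *
      th τ (u + j * t)) / th τ (u + (j + 1 : ℕ) * t) ^ 2 := fun j => by
    have s := sig h (nm (j + 1)) m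
    rw [show u + (j + 1 : ℕ) * t + t = u + (j + 2 : ℕ) * t by push_cast; ring,
      show u + (j + 1 : ℕ) * t - t = u + j * t by push_cast; ring] at s
    rw [← map_nsmul, ← map_add, nsmul_eq_mul, x _ m, x _ (nm _), hκ,
      eq_div_iff (pow_ne_zero _ (nz _)), div_mul_eq_mul_div, eq_div_iff (pow_ne_zero _ nt)]
    linear_combination -c * s
  obtain ⟨r, rfl⟩ := o
  have e1 := th_sq h a b u
  have e2 := th_sq h a b (u + t)
  rw [← ht] at e1 e2
  rw [show u + t + (2 * r + 1 : ℕ) * t = u + (2 * r + 2 : ℕ) * t by push_cast; ring] at e2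
  have e3 : ee (-(2 * b * (u + t)) - b ^ 2 * τ) = ee (-(2 * b * u) - b ^ 2 * τ) * ee (-(2 * b * t)) := by
    rw [← ee_add]
    congr 1
    ring
  have e4 : ee (-(2 * b * t)) ^ r = ee (-(2 * b * u) - b ^ 2 * τ) * ee (2 * b * u + b * t) := by
    rw [← ee_add, ← ee_nat]
    refine ee_congr (-(a * b)) ?_
    push_cast at ht ⊢
    linear_combination -b * ht
  have := tel (fun j => th τ (u + j * t)) nz κ0 _ e r (ee_ne _) (by simpa using e1)
    (by simpa [e3] using e2) e4
  simpa only [dm, show (2 * r + 1) / 2 = r by omega, Nat.cast_zero, Nat.cast_one, zero_mul, one_mul,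
    add_zero] using this

/-- **the theta group** -/
theorem fn_co {N : ℕ} (o : Odd N) {u t t' : ℂ} {a b a' b' : ℤ} (hu : N * u ∉ (pp h).lattice)
    (ht : N * t = b * τ + a) (ht' : N * t' = b' * τ + a') : Fn X N (ex u) (ex t) ≠ 0 ∧
    Fn X N (ex u) (ex t) * Fn X N (ex u + ex t) (ex t') =
      Fn X N (ex u) (ex t + ex t') * ee (1 / N) ^ (a * b' - a' * b) := by
  have nm : ∀ {u t : ℂ} {a b : ℤ}, N * u ∉ (pp h).lattice → N * t = b * τ + a →
      N * (u + t) ∉ (pp h).lattice := fun {u t a b} hu ht m => hu (by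
    simpa [mul_add, ht] using sub_mem m ((mem h _).2 ⟨b, a, rfl⟩))
  have nz : ∀ {u : ℂ}, N * u ∉ (pp h).lattice → th τ u ≠ 0 := fun hu =>
    th_nz h fun m => hu (by simpa using nsmul_mem m N)
  have h2 : N * (t + t') = (b + b' : ℤ) * τ + (a + a' : ℤ) := by
    push_cast
    linear_combination ht + ht'
  have n0 := nz hu
  have n1 := nz (nm hu ht)
  have N0 : (N : ℂ) ≠ 0 := Nat.cast_ne_zero.2 o.pos.ne'
  rw [← map_add, ← map_add, fn_an h c0 k x o hu ht, fn_an h c0 k x o (nm hu ht) ht',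
    fn_an h c0 k x o hu h2]
  refine ⟨mul_ne_zero (pow_ne_zero _ (div_ne_zero n1 n0)) (ee_ne _), ?_⟩
  rw [mul_mul_mul_comm, ← mul_pow, ← ee_add, mul_assoc (_ ^ _), ← ee_zpow, ← ee_add, add_assoc u]
  congr 2
  · field_simp
  · field_simp
    push_cast
    linear_combination b' * ht - b * ht'

end Vale.Agent.P014Y.Ks
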