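import Vale.Agent.P014Y.Ks.An
import Vale.Agent.P014U.Ki.Wp
import Vale.Agent.P014U.Sh.Alg
import Vale.Agent.P004K.Lt

/-! # P014Y, block Ks: the theta group on the algebraic points (helper82) -/

set_option autoImplicit false
set_option linter.all false

open scoped Classical

noncomputable section

namespace Vale.Agent.P014Y.Ks

open Vale.Agent.P022 (Qb GQ)
open Vale.Agent.P004M.TE (Pt ga Cv pa pa_inj xp_pa)
open Vale.Agent.P004H.H666 (xp)
open Vale.Agent.P027M.M (io)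
open Vale.Agent.P014X.An
open Vale.Agent.P014U Vale.Agent.P014U.Ki
open Vale.Agent.P014U.X4S.Ga (K O)
open Vale.Agent.P014U.X4S.Aq
open Vale.Agent.P014U.X4F.Rc

theorem unif {a b : ℚ} (hD : 4 * a ^ 3 + 27 * b ^ 2 ≠ 0) : ∃ (τ : ℂ) (h : 0 < τ.im) (c : ℂ)
    (ex : ℂ →+ (Cv ℂ a b).Point), c ≠ 0 ∧ Function.Surjective ex ∧
    (∀ z, ex z = 0 ↔ z ∈ (Eis.pp h).lattice) ∧
    ∀ z ∉ (Eis.pp h).lattice, xp (ex z) = c * (Eis.pp h).weierstrassP z := by
  obtain ⟨Λ, l, -, -, ex, s, k, x⟩ := P027H.exists_unif (algebraMap ℚ ℂ a) (algebraMap ℚ ℂ b)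
    (by simpa using (Rat.cast_injective (α := ℂ)).ne hD)
  obtain ⟨c, τ, H⟩ := P004K.ex_lat l
  have e : (Eis.pp τ.2).lattice = P027M.M.lat τ := Submodule.ext fun z =>
    (Eis.mem _ z).trans P027M.M.mem_lat.symm
  have k' : ∀ z, ex (c * z) = 0 ↔ z ∈ (Eis.pp τ.2).lattice := fun z => by rw [k, e, H.2]
  refine ⟨τ, τ.2, c⁻¹ ^ 2, (ex.comp (AddMonoidHom.mulLeft c) :), pow_ne_zero _ (inv_ne_zero H.1),
    fun y => ?_, k', fun z m => ?_⟩
  · obtain ⟨z, rfl⟩ := s y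
    exact ⟨c⁻¹ * z, congrArg ex (mul_inv_cancel_left₀ H.1 z)⟩
  · have := (x (c * z)).1
    rw [H.wp, ← e, P027H.wp_lat] at this
    rw [← this]
    have n := mt (k' z).1 m
    change xp (ex (c * z) :) = _
    generalize ex (c * z) = P at n
    rcases P with _ | _
    · exact absurd rfl n
    · rfl

variable [Pp]

theorem lv {n m : ℕ} (h : n ≤ m) {x : K} (a : (pp : K) ^ n * x ∈ O) : (pp : K) ^ m * x ∈ O := by
  obtain ⟨c, rfl⟩ := Nat.exists_eq_add_of_le h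
  exact O_of (O_mul (O_pow c) a) (by ring)

theorem ee_z {m : ℕ} {x : K} (a : (pp : K) ^ m * x ∈ O) (z : ℤ) : ee m (z * x) = ee m x ^ z := by
  obtain ⟨k, rfl | rfl⟩ := z.eq_nat_or_neg
  · simpa using ee_pow a k
  · have b : (pp : K) ^ m * (k * x) ∈ O := O_of (O_mul (O_nat k) a) (by ring)
    rw [zpow_neg, zpow_natCast, ← ee_pow a]
    refine eq_inv_of_mul_eq_one_left ?_
    rw [← ee_add (O_of (neg_mem b) (by push_cast; ring)) b]
    simpa using ee_zero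

theorem ee_mq {m : ℕ} {x y z : K} (a : (pp : K) ^ m * x ∈ O) (b : (pp : K) ^ m * y ∈ O)
    (c : (pp : K) ^ m * z ∈ O) (e : mq x = mq y + mq z) : ee m x = ee m y * ee m z := by
  rw [← ee_add b c, ee_eq a (O_of (add_mem b c) (mul_add _ _ _)), ← mq_eq, map_add, e]

variable {A B : ℤ} (hD : 4 * (A : ℚ) ^ 3 + 27 * (B : ℚ) ^ 2 ≠ 0)

theorem wp_z {n : ℕ} {p q : Pt A B} (hp : pp ^ n • p = 0) (hq : pp ^ n • q = 0) (a b a' b' : ℤ) :
    wp hD n (a • p + b • q) (a' • p + b' • q) - (a * b' - a' * b : ℤ) * wp hD n p q ∈ O := by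
  obtain ⟨s, rfl⟩ := P027M.K.TM.exists_cp (X4M.TE.hdiv hD) hp
  obtain ⟨t, rfl⟩ := P027M.K.TM.exists_cp (X4M.TE.hdiv hD) hq
  have e : dt hD (a • s + b • t) (a' • s + b' • t) = (a * b' - a' * b : ℤ) * dt hD s t := by
    simp only [dt, map_add, map_zsmul, Finsupp.add_apply, Finsupp.smul_apply, zsmul_eq_mul]
    push_cast
    ring
  rw [← map_zsmul, ← map_zsmul, ← map_zsmul, ← map_zsmul, ← map_add, ← map_add, ← mq_eq, wp_cp, e,
    ← zsmul_eq_mul _ (_ - _), ← zsmul_eq_mul _ (_ - _), map_zsmul, wp_cp, ← map_zsmul]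
  congr 1
  simp only [zsmul_eq_mul, PadicInt.coe_mul, PadicInt.coe_intCast]
  ring

/-- the factors of the theta group -/
structure Tg (n m : ℕ) (F : Pt A B → Pt A B → Qb) : Prop where
  act : ∀ (g : GQ) x T, pp ^ n • T = 0 → F (ga g x) (ga g T) = g (F x T)
  ne : ∀ x T, pp ^ n • T = 0 → F x T ≠ 0
  co : ∀ x T T', pp ^ n • T = 0 → pp ^ n • T' = 0 →
    F x T * F (x + T) T' = F x (T + T') * ee m (wp hD n T T')

/-- **the theta group** -/
theorem ex_tg {n m : ℕ} (nm : n ≤ m) : ∃ F, Tg hD n m F := by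
  obtain ⟨τ, h, c, ex, c0, s, k, x⟩ := unif hD
  have n0 := (pw_pos n).ne'
  have N0 : ((pp ^ n : ℕ) : ℂ) ≠ 0 := Nat.cast_ne_zero.2 n0
  have kk : ∀ {z : ℂ} {y : Pt A B}, ex z = pa io y →
      (pp ^ n • y = 0 ↔ (pp ^ n : ℕ) * z ∈ (Eis.pp h).lattice) := fun {z y} e => by
    rw [← k, ← nsmul_eq_mul, map_nsmul, e, ← map_nsmul, map_eq_zero_iff _ (pa_inj io)]
  have dv : ∀ a b : ℤ, ∃ p : Pt A B, pa io p = ex ((b * τ + a) / (pp ^ n : ℕ)) := fun a b =>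
    Sh.Lp.alg two_ne_zero hD io n0 ⟨0, by
      rw [map_zero, ← map_nsmul, nsmul_eq_mul, mul_div_cancel₀ _ N0, eq_comm, k]
      exact (Eis.mem h _).2 ⟨b, a, rfl⟩⟩
  obtain ⟨p, hp⟩ := dv 1 0
  obtain ⟨q, hq⟩ := dv 0 1
  have tp := (kk hp.symm).2 (by rw [mul_div_cancel₀ _ N0]; exact (Eis.mem h _).2 ⟨_, _, rfl⟩)
  have tq := (kk hq.symm).2 (by rw [mul_div_cancel₀ _ N0]; exact (Eis.mem h _).2 ⟨_, _, rfl⟩)
  have co : ∀ T : Pt A B, pp ^ n • T = 0 → ∃ (t : ℂ) (a b : ℤ), ex t = pa io T ∧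
      (pp ^ n : ℕ) * t = b * τ + a ∧ T = a • p + b • q := fun T e => by
    obtain ⟨t, d⟩ := s (pa io T)
    obtain ⟨b, a, f⟩ := (Eis.mem h _).1 ((kk d).1 e)
    refine ⟨t, a, b, d, f.symm, pa_inj io ?_⟩
    rw [map_add, map_zsmul, map_zsmul, hp, hq, ← map_zsmul, ← map_zsmul, ← map_add, ← d]
    congr 1
    simp only [zsmul_eq_mul]
    field_simp
    push_cast at f ⊢
    linear_combination -f
  have l := fun x y => lv nm (wp_lev hD n x y)
  obtain ⟨j, -, hj⟩ := (P014T.Sg.ee_prim (pw_pos n) (Nat.coprime_one_right _)).eq_pow_of_pow_eq_one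
    (ξ := io (ee m (wp hD n p q))) (by
      rw [← map_pow, ← ee_pow (l p q), (ee_one (O_of (O_mul (O_nat (pp ^ n)) (l p q)) (by ring))).2
        (by simpa using wp_lev hD n p q), map_one])
  have key : ∀ y T T' : Pt A B, pp ^ n • y ≠ 0 → pp ^ n • T = 0 → pp ^ n • T' = 0 →
      Fn xp (pp ^ n) y T ≠ 0 ∧ Fn xp (pp ^ n) y T ^ j * Fn xp (pp ^ n) (y + T) T' ^ j =
        Fn xp (pp ^ n) y (T + T') ^ j * ee m (wp hD n T T') := fun y T T' a b b' => by
    obtain ⟨u, d⟩ := s (pa io y)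
    obtain ⟨t, i, i', e1, e2, e3⟩ := co T b
    obtain ⟨t', f, f', d1, d2, d3⟩ := co T' b'
    obtain ⟨r1, r2⟩ := fn_co h c0 k x (pp_odd.pow (n := n)) (mt (kk d).2 a) e2 d2
    have w := fn_map (X := xp) (X' := xp) (pa (a := (A : ℚ)) (b := (B : ℚ)) io) (pa_inj io)
      (io : Qb →+* ℂ) (xp_pa io) (pp ^ n)
    rw [d, e1, d1, ← map_add, ← map_add, w, w, w] at r2
    rw [d, e1, w] at r1
    refine ⟨fun z => r1 (by rw [z, map_zero]), P004K.io_inj ?_⟩
    have v := (ee_eq (l _ _) (O_of (O_mul (intCast_mem (PadicInt.subring pp) (i * f' - f * i'))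
      (l p q)) (by ring))).2 (wp_z hD tp tq i i' f f')
    rw [← e3, ← d3, ee_z (l p q)] at v
    rw [v, ← mul_pow, map_pow, map_mul, map_mul, map_pow, map_zpow₀, ← hj]
    erw [r2]
    rw [mul_pow, Nat.cast_one, ← zpow_natCast (_ ^ (_ - _)), ← zpow_natCast (P014T.Sg.ee _), ← zpow_mul,
      ← zpow_mul, mul_comm (j : ℤ)]
    rfl
  have H := pr hD
  refine ⟨fun y T => if pp ^ n • y = 0 then ee m (wp hD n y T) else Fn xp (pp ^ n) y T ^ j,
    fun g y T a => ?_, fun y T a => ?_, fun y T T' a a' => ?_⟩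
  · have i : Function.Injective (ga g : Pt A B → Pt A B) := pa_inj _
    have i' : pp ^ n • ga g y = 0 ↔ pp ^ n • y = 0 := by rw [← map_nsmul, map_eq_zero_iff _ i]
    simp only [i']
    split_ifs with e
    · rw [ee_cy g (l _ _), ee_eq (l _ _) (O_of (O_mul (O_cy g) (l y T)) (by ring)), ← mq_eq,
        H.act g e a]
    · rw [map_pow]
      exact congrArg (· ^ j) (fn_map (ga g) i (g : Qb →+* Qb) (P004M.TE.xp_ga g) _ y T)
  · split_ifs with e
    · exact ee_ne (l _ _)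
    · exact pow_ne_zero _ (key y T T e a a).1
  · have i : pp ^ n • (y + T) = pp ^ n • y := by rw [nsmul_add, a, add_zero]
    simp only [i]
    split_ifs with e
    · rw [ee_mq (l _ _) (l _ _) (l _ _) (H.addl e a a'), ee_mq (l _ _) (l _ _) (l _ _) (H.addr e a a'),
        mul_assoc]
    · exact (key y T T' e a a').2

end Vale.Agent.P014Y.Ks
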