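import Vale.Agent.P014Y.Ks.Fn

/-! # P014Y, block Ks: isotropy of Kummer images for every subgroup (helper82) -/

set_option autoImplicit false
set_option linter.all false

open scoped Classical

noncomputable section

namespace Vale.Agent.P014Y.Ks

open Vale.Agent.P022 (Qb GQ)
open Vale.Agent.P004M.TE (Pt ga pa_inj ga_mul ev_ga)
open Vale.Agent.P014U Vale.Agent.P014U.Ki
open Vale.Agent.P014U.X4S.Ga (K O d2 B2)
open Vale.Agent.P014U.X4S.Aq
open Vale.Agent.P014U.X4F.Rc

variable {A B : ℤ} {I : Type}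

/-- the induced action -/
def rs (s : GQ → I → I) (g : GQ) : (I → Pt A B) →+ (I → Pt A B) where
  toFun Q i := ga g (Q (s g i))
  map_zero' := funext fun _ => map_zero _
  map_add' _ _ := funext fun _ => map_add _ _ _

theorem rs_apply (s : GQ → I → I) (g : GQ) (Q : I → Pt A B) (i : I) :
    rs s g Q i = ga g (Q (s g i)) := rfl

/-- a continuous right action of `D` on the indices -/
structure Ac (D : Subgroup GQ) (s : GQ → I → I) : Prop where
  inj : ∀ g ∈ D, Function.Injective (s g)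
  mul : ∀ g ∈ D, ∀ h ∈ D, ∀ i, s (g * h) i = s h (s g i)
  lc : ∀ i, IsLocallyConstant fun g : D => s g i

variable [Fintype I] {D : Subgroup GQ} {s : GQ → I → I} {g h : GQ}

theorem Ac.bij (c : Ac D s) (m : g ∈ D) : Function.Bijective (s g) :=
  Finite.injective_iff_bijective.1 (c.inj g m)

theorem Ac.rmul (c : Ac D s) (m : g ∈ D) (m' : h ∈ D) (Q : I → Pt A B) :
    rs s (g * h) Q = rs s g (rs s h Q) := funext fun i => by
  simp only [rs_apply, ga_mul, c.mul g m h m']

theorem Ac.co (c : Ac D s) (m : g ∈ D) (m' : h ∈ D) (Q : I → Pt A B) :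
    rs s (g * h) Q - Q = rs s g Q - Q + rs s g (rs s h Q - Q) := by
  rw [c.rmul m m', map_sub]; abel

theorem Ac.rlc (c : Ac D s) (Q : I → Pt A B) : IsLocallyConstant fun g : D => rs s g Q :=
  (IsLocallyConstant.iff_eventually_eq _).2 fun g => by
    filter_upwards [Filter.eventually_all.2 fun i => (c.lc i).eventually_eq g,
      Filter.eventually_all.2 fun i => continuous_subtype_val.continuousAt.eventually
        (ev_ga g.1 (Q i))] with j a b
    exact funext fun i => by rw [rs_apply, rs_apply, a, b]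

variable [Pp] (hD : 4 * (A : ℚ) ^ 3 + 27 * (B : ℚ) ^ 2 ≠ 0)

/-- the sum of the pairings -/
def ws (n : ℕ) (Q R : I → Pt A B) : K := ∑ i, wp hD n (Q i) (R i)

variable {n : ℕ} {x x' y y' Q R : I → Pt A B}

theorem ws_addl (a : pp ^ n • x = 0) (a' : pp ^ n • x' = 0) (b : pp ^ n • y = 0) :
    mq (ws hD n (x + x') y) = mq (ws hD n x y) + mq (ws hD n x' y) := by
  simp only [ws, map_sum, ← Finset.sum_add_distrib]
  exact Finset.sum_congr rfl fun i _ => (pr hD).addl (congrFun a i) (congrFun a' i) (congrFun b i)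

theorem ws_addr (a : pp ^ n • x = 0) (b : pp ^ n • y = 0) (b' : pp ^ n • y' = 0) :
    mq (ws hD n x (y + y')) = mq (ws hD n x y) + mq (ws hD n x y') := by
  simp only [ws, map_sum, ← Finset.sum_add_distrib]
  exact Finset.sum_congr rfl fun i _ => (pr hD).addr (congrFun a i) (congrFun b i) (congrFun b' i)

theorem ws_skew (a : pp ^ n • x = 0) (b : pp ^ n • y = 0) :
    mq (ws hD n x y) = -mq (ws hD n y x) := by
  simp only [ws, map_sum, ← Finset.sum_neg_distrib]
  exact Finset.sum_congr rfl fun i _ => (pr hD).skew (congrFun a i) (congrFun b i)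

theorem ws_act (c : Ac D s) (m : g ∈ D) (a : pp ^ n • x = 0) (b : pp ^ n • y = 0) :
    mq (cy g * ws hD n x y) = mq (ws hD n (rs s g x) (rs s g y)) := by
  simp only [ws, Finset.mul_sum, map_sum, rs_apply]
  rw [← (c.bij m).sum_comp]
  exact Finset.sum_congr rfl fun i _ => (pr hD).act g (congrFun a _) (congrFun b _)

theorem ws_lev (n : ℕ) (x y : I → Pt A B) : (pp : K) ^ n * ws hD n x y ∈ O := by
  rw [ws, Finset.mul_sum]
  exact sum_mem fun i _ => wp_lev hD n _ _

theorem ee_sum {m : ℕ} (t : Finset I) {f : I → K} (a : ∀ i, (pp : K) ^ m * f i ∈ O) :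
    ee m (∑ i ∈ t, f i) = ∏ i ∈ t, ee m (f i) := by
  induction t using Finset.induction_on with
  | empty => simpa using ee_zero
  | insert i t k ih =>
    rw [Finset.sum_insert k, Finset.prod_insert k, ee_add (a i), ih]
    rw [Finset.mul_sum]
    exact sum_mem fun i _ => a i

theorem Tg.ex_ps {m : ℕ} {F : Pt A B → Pt A B → Qb} (nm : n ≤ m) (T : Tg hD n m F) :
    ∃ ψ : Pt A B → Qb, (∀ x, ψ x ≠ 0) ∧ (∀ (g : GQ) x, g (ψ x) = ψ (ga g x)) ∧ ∀ x t, pp ^ n • t = 0 →
      F x t ^ pp ^ (3 * n) * ψ (x + t) ^ pp ^ n = ψ x ^ pp ^ n := by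
  let S := (nsmulAddMonoidHom (pp ^ n) : Pt A B →+ Pt A B).ker
  have c : Nat.card S = (pp ^ n) ^ 2 := Sh.Lp.card_n hD (pw_pos n).ne'
  have : Finite S := Nat.finite_of_card_ne_zero (c ▸ pow_ne_zero _ (pw_pos n).ne')
  have := Fintype.ofFinite S
  refine ⟨fun x => ∏ t : S, F x t, fun x => Finset.prod_ne_zero_iff.2 fun t _ => T.ne _ _ t.2,
    fun g x => ?_, fun x t a => ?_⟩
  · have b : Function.Bijective fun t : S => (⟨ga g t.1, tor_map (ρ := ga) t.2 g⟩ : S) :=
      Finite.injective_iff_bijective.1 fun t t' e => Subtype.ext (pa_inj _ (congrArg Subtype.val e))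
    rw [map_prod]
    exact (Finset.prod_congr rfl fun (t : S) _ => (T.act g x t t.2).symm).trans
      (b.prod_comp fun t : S => F (ga g x) t)
  · have e := Finset.prod_congr (s₁ := Finset.univ) rfl fun (u : S) _ => T.co x t u a u.2
    have l := fun u => lv nm (wp_lev hD n t u)
    rw [Finset.prod_mul_distrib, Finset.prod_mul_distrib, Finset.prod_const, Finset.card_univ,
      ← Nat.card_eq_fintype_card, c] at e
    rw [show pp ^ (3 * n) = (pp ^ n) ^ 2 * pp ^ n by ring, pow_mul, ← mul_pow, e, mul_pow,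
      ← Finset.prod_pow _ _ fun u : S => ee m _, Finset.prod_eq_one (f := fun u : S => ee m _ ^ _)
        fun u _ => by
          rw [← ee_pow (l u), ee_one (O_of (O_mul (O_nat (pp ^ n)) (l u)) (by ring))]
          simpa using wp_lev hD n t u, mul_one]
    exact congrArg (· ^ _) (Equiv.prod_comp (Equiv.addLeft (⟨t, a⟩ : S)) fun u => F x u)

/-- the cup square of a Kummer class vanishes -/
theorem sq (c : Ac D s) (a : pp ^ n • Q ∈ Fx D (rs s)) : B2 cy D (cu (rs s) (ws hD) n Q Q) := by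
  have nm : n ≤ 3 * n := by omega
  obtain ⟨F, T⟩ := ex_tg hD nm
  obtain ⟨ψ, p0, p1, p2⟩ := T.ex_ps hD nm
  obtain ⟨r, hr⟩ := IsAlgClosed.exists_pow_nat_eq (∏ i, ψ (Q i)) (pw_pos (2 * n))
  have q0 : ∏ i, ψ (Q i) ≠ 0 := Finset.prod_ne_zero_iff.2 fun i _ => p0 _
  have r0 : r ≠ 0 := fun e => q0 (by rw [← hr, e, zero_pow (pw_pos _).ne'])
  obtain ⟨η, hη⟩ : ∃ η : GQ → Qb, ∀ g, η g = (∏ i, F (Q i) ((rs s g Q - Q) i)) * g r / r :=
    ⟨_, fun _ => rfl⟩
  have t : ∀ {g}, g ∈ D → ∀ i, pp ^ n • (rs s g Q - Q) i = 0 := fun m => congrFun (tor a m)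
  have e1 : ∀ g ∈ D, η g ^ pp ^ (3 * n) = 1 := fun g m => by
    have e : ∀ z : Qb, z ^ pp ^ (3 * n) = (z ^ pp ^ (2 * n)) ^ pp ^ n := fun z => by
      rw [← pow_mul, ← pow_add]
      congr 2
      omega
    rw [hη, div_pow, mul_pow, e (g r), e r, ← map_pow, hr, div_eq_one_iff_eq (pow_ne_zero _ q0),
      map_prod, ← (c.bij m).prod_comp fun i => g (ψ (Q i)), ← Finset.prod_pow, ← Finset.prod_pow,
      ← Finset.prod_pow, ← Finset.prod_mul_distrib]
    refine Finset.prod_congr rfl fun i _ => ?_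
    rw [← p2 _ _ (t m i), p1, Pi.sub_apply, add_sub_cancel, rs_apply]
  have l := fun x y : I → Pt A B => lv nm (ws_lev hD n x y)
  have e2 : ∀ g ∈ D, ∀ h ∈ D, η g * g (η h) = η (g * h) * ee (3 * n) (cu (rs s) (ws hD) n Q Q g h) :=
    fun g m h m' => by
      have g0 : g r ≠ 0 := (map_ne_zero g).2 r0
      have : (∏ i, F (Q i) ((rs s g Q - Q) i)) * g (∏ i, F (Q i) ((rs s h Q - Q) i)) =
          (∏ i, F (Q i) ((rs s (g * h) Q - Q) i)) * ee (3 * n) (cu (rs s) (ws hD) n Q Q g h) := by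
        rw [cu, ws, ee_sum _ fun i => lv nm (wp_lev hD n _ _), map_prod,
          ← (c.bij m).prod_comp fun i => g (F (Q i) _), ← Finset.prod_mul_distrib,
          ← Finset.prod_mul_distrib, c.co m m']
        refine Finset.prod_congr rfl fun i _ => ?_
        rw [Pi.add_apply, ← T.co _ _ _ (t m i) (congrFun (tor_map (tor a m') g) i), ← T.act g _ _ (t m' _),
          Pi.sub_apply (rs s g Q), add_sub_cancel]
        rfl
      rw [hη, hη, hη, map_div₀, map_mul, AlgEquiv.mul_apply]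
      field_simp
      rw [this]
      ring
  let G : Qb → ℕ := fun γ => if e : ∃ k : ℕ, γ = ee (3 * n) (hn (3 * n) * k) then e.choose else 0
  have e3 : ∀ g ∈ D, η g = ee (3 * n) (hn (3 * n) * G (η g)) := fun g m => by
    have e := ee_onto (e1 g m)
    simp only [G, dif_pos e]
    exact e.choose_spec
  refine ⟨fun g => hn (3 * n) * G (η g), continuousOn_iff_continuous_restrict.2 ?_, fun g m h m' => ?_⟩
  · simp only [hη]
    exact (((c.rlc Q).prodMk ((lc_act r).comp_continuous continuous_subtype_val)).comp fun z =>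
      hn (3 * n) * G ((∏ i, F (Q i) ((z.1 - Q) i)) * z.2 / r)).continuous
  · have k := fun z => lev (n := 3 * n) (O_nat (G z))
    have k' : (pp : K) ^ (3 * n) * (cy g * (hn (3 * n) * G (η h))) ∈ O :=
      O_of (O_mul (O_cy g) (k (η h))) (by ring)
    have := e2 g m h m'
    rw [e3 g m, e3 h m', e3 _ (mul_mem m m'), ee_cy g (k _), ← ee_add (k _) k', cu,
      ← ee_add (k _) (l _ _),
      ee_eq (O_of (add_mem (k _) k') (mul_add _ _ _)) (O_of (add_mem (k _) (l _ _)) (mul_add _ _ _))]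
      at this
    exact O_of (neg_mem this) (by simp only [d2, cu]; ring)

theorem sym (c : Ac D s) (a : pp ^ n • Q ∈ Fx D (rs s)) (b : pp ^ n • R ∈ Fx D (rs s)) :
    B2 cy D fun g h => cu (rs s) (ws hD) n Q R g h - cu (rs s) (ws hD) n R Q g h := by
  refine ⟨fun h => -ws hD n (rs s h Q - Q) (rs s h R - R), continuousOn_iff_continuous_restrict.2
    (((c.rlc Q).prodMk (c.rlc R)).comp fun z => -ws hD n (z.1 - Q) (z.2 - R)).continuous,
    fun g hg h hh => mq_eq.1 ?_⟩
  simp only [d2, cu, map_add mq, map_sub mq, mul_neg, map_neg mq]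
  rw [ws_act hD c hg (tor a hh) (tor b hh), c.co hg hh, c.co hg hh,
    ws_addl hD (tor a hg) (tor_map (tor a hh) g) (tor_add (tor b hg) (tor_map (tor b hh) g)),
    ws_addr hD (tor a hg) (tor b hg) (tor_map (tor b hh) g),
    ws_addr hD (tor_map (tor a hh) g) (tor b hg) (tor_map (tor b hh) g),
    ws_skew hD (tor b hg) (tor_map (tor a hh) g)]
  abel

/-- **isotropy of the Kummer image for every subgroup** -/
theorem iso (c : Ac D s) (a : pp ^ n • Q ∈ Fx D (rs s)) (b : pp ^ n • R ∈ Fx D (rs s)) :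
    B2 cy D (cu (rs s) (ws hD) n Q R) := by
  obtain ⟨θ, t1, t2⟩ := b2_add (b2_add (sq hD c (n := n) (Q := Q + R) (by rw [nsmul_add]; exact add_mem a b))
    (b2_neg (b2_add (sq hD c a) (sq hD c b)))) (sym hD c a b)
  refine ⟨fun g => 2⁻¹ * θ g, continuousOn_const.mul t1, fun g hg h hh => O_dbl ?_⟩
  have e : mq (cu (rs s) (ws hD) n (Q + R) (Q + R) g h) = mq (cu (rs s) (ws hD) n Q Q g h +
      cu (rs s) (ws hD) n Q R g h + (cu (rs s) (ws hD) n R Q g h + cu (rs s) (ws hD) n R R g h)) := by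
    simp only [cu, map_add mq, map_add (rs s _), add_sub_add_comm]
    rw [ws_addl hD (tor a hg) (tor b hg) (tor_add (tor_map (tor a hh) g) (tor_map (tor b hh) g)),
      ws_addr hD (tor a hg) (tor_map (tor a hh) g) (tor_map (tor b hh) g),
      ws_addr hD (tor b hg) (tor_map (tor a hh) g) (tor_map (tor b hh) g)]
  exact O_of (sub_mem (t2 g hg h hh) (mq_eq.1 e)) (by simp only [d2]; ring)

/-- the case of one point -/
theorem iso1 {x y : Pt A B} (a : pp ^ n • x ∈ Fx D ga) (b : pp ^ n • y ∈ Fx D ga) :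
    B2 cy D (cu ga (wp hD) n x y) := by
  have := iso hD (I := Unit) (D := D) (s := fun _ i => i) (Q := fun _ => x) (R := fun _ => y)
    ⟨fun _ _ _ _ e => e, fun _ _ _ _ _ => rfl, fun _ => IsLocallyConstant.const _⟩
    (fun g m => funext fun _ => a g m) fun g m => funext fun _ => b g m
  exact b2_congr this fun g _ h _ => O_of (zero_mem _) (by simp [cu, ws, rs_apply])

end Vale.Agent.P014Y.Ks
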